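import Mathlib.NumberTheory.ModularForms.CongruenceSubgroups
import Mathlib.GroupTheory.Schreier
import Mathlib.GroupTheory.PGroup
import Mathlib.LinearAlgebra.Matrix.FixedDetMatrices

/-!
# P022-L3, row [GM]: the groups `± (Γ(2^M) ∩ Γ_1(N))` (`N = 1, 3`), letter-free

normal in `Γ_0(N)`, finite index in `SL(2, ℤ)`, finitely generated, finitely many characters to a
finite group, and the quotient of `Γ(2) ∩ Γ_0(N)` by it is a 2-group.
-/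

namespace Vale.Agent.P022.H908.GM

open Matrix CongruenceSubgroup ModularGroup
open scoped MatrixGroups

/-! ### signs -/

/-- `± Γ` -/
def pm (Γ : Subgroup SL(2, ℤ)) : Subgroup SL(2, ℤ) where
  carrier := {γ | γ ∈ Γ ∨ -γ ∈ Γ}
  one_mem' := Or.inl Γ.one_mem
  mul_mem' := by
    rintro a b (ha | ha) (hb | hb)
    · exact Or.inl (mul_mem ha hb)
    · refine Or.inr ?_
      have := mul_mem ha hb
      rwa [mul_neg] at this
    · refine Or.inr ?_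
      have := mul_mem ha hb
      rwa [neg_mul] at this
    · refine Or.inl ?_
      have := mul_mem ha hb
      rwa [neg_mul_neg] at this
  inv_mem' := by
    rintro a (ha | ha)
    · exact Or.inl (inv_mem ha)
    · refine Or.inr ?_
      have := inv_mem ha
      have h : (-a)⁻¹ = -a⁻¹ := by
        rw [inv_eq_iff_mul_eq_one, neg_mul_neg, mul_inv_cancel]
      rwa [h] at this

theorem mem_pm {Γ : Subgroup SL(2, ℤ)} {γ : SL(2, ℤ)} : γ ∈ pm Γ ↔ γ ∈ Γ ∨ -γ ∈ Γ := Iff.rfl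

theorem le_pm (Γ : Subgroup SL(2, ℤ)) : Γ ≤ pm Γ := fun _ h => Or.inl h

theorem neg_one_mem_pm (Γ : Subgroup SL(2, ℤ)) : -1 ∈ pm Γ :=
  Or.inr (by rw [neg_neg]; exact Γ.one_mem)

theorem pm_mono {Γ Γ' : Subgroup SL(2, ℤ)} (h : Γ ≤ Γ') : pm Γ ≤ pm Γ' :=
  fun _ h1 => h1.imp (fun h2 => h h2) (fun h2 => h h2)

theorem conj_pm {Γ : Subgroup SL(2, ℤ)} {g : SL(2, ℤ)} (h : ∀ γ ∈ Γ, g * γ * g⁻¹ ∈ Γ) :
    ∀ γ ∈ pm Γ, g * γ * g⁻¹ ∈ pm Γ := by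
  rintro γ (h1 | h1)
  · exact Or.inl (h γ h1)
  · refine Or.inr ?_
    have := h _ h1
    rwa [mul_neg, neg_mul] at this

/-! ### powers of two -/

theorem Gamma_mem_int {N : ℕ} {γ : SL(2, ℤ)} : γ ∈ Gamma N ↔ ∃ X : Matrix (Fin 2) (Fin 2) ℤ,
    (γ : Matrix (Fin 2) (Fin 2) ℤ) = 1 + (N : ℤ) • X := by
  rw [Gamma_mem]
  constructor
  · rintro ⟨h1, h2, h3, h4⟩
    have h1' : (N : ℤ) ∣ γ 0 0 - 1 := (ZMod.intCast_zmod_eq_zero_iff_dvd _ N).1 (by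
      push_cast; rw [h1, sub_self])
    have h2' : (N : ℤ) ∣ γ 0 1 := (ZMod.intCast_zmod_eq_zero_iff_dvd _ N).1 h2
    have h3' : (N : ℤ) ∣ γ 1 0 := (ZMod.intCast_zmod_eq_zero_iff_dvd _ N).1 h3
    have h4' : (N : ℤ) ∣ γ 1 1 - 1 := (ZMod.intCast_zmod_eq_zero_iff_dvd _ N).1 (by
      push_cast; rw [h4, sub_self])
    obtain ⟨a, ha⟩ := h1'
    obtain ⟨b, hb⟩ := h2'
    obtain ⟨c, hc⟩ := h3'
    obtain ⟨d, hd⟩ := h4'
    refine ⟨!![a, b; c, d], ?_⟩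
    ext i j
    fin_cases i <;> fin_cases j <;> simp <;> linarith
  · rintro ⟨X, hX⟩
    have h : ∀ i j, γ i j = (1 : Matrix (Fin 2) (Fin 2) ℤ) i j + N * X i j := fun i j => by
      rw [hX, Matrix.add_apply, Matrix.smul_apply, smul_eq_mul]
    refine ⟨?_, ?_, ?_, ?_⟩ <;> rw [h] <;> simp

theorem sq_mem_Gamma {k : ℕ} {γ : SL(2, ℤ)} (h : γ ∈ Gamma (2 ^ (k + 1))) :
    γ ^ 2 ∈ Gamma (2 ^ (k + 2)) := by
  obtain ⟨X, hX⟩ := Gamma_mem_int.1 h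
  refine Gamma_mem_int.2 ⟨X + (2 ^ k : ℤ) • (X * X), ?_⟩
  rw [SpecialLinearGroup.coe_pow, hX, pow_two]
  push_cast
  simp only [mul_add, add_mul, mul_one, one_mul, smul_mul_assoc, mul_smul_comm, smul_add,
    smul_smul]
  have e1 : (2 ^ (k + 2) : ℤ) • X = (2 ^ (k + 1) : ℤ) • X + (2 ^ (k + 1) : ℤ) • X := by
    rw [← add_smul]
    congr 1
    ring
  have e2 : (2 ^ (k + 2) * 2 ^ k : ℤ) = 2 ^ (k + 1) * 2 ^ (k + 1) := by ring
  rw [e1, e2]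
  abel

theorem pow_mem_Gamma {γ : SL(2, ℤ)} (h : γ ∈ Gamma 2) (n : ℕ) :
    γ ^ 2 ^ n ∈ Gamma (2 ^ (n + 1)) := by
  induction n with
  | zero => simpa using h
  | succ n ih =>
    have h1 := sq_mem_Gamma ih
    rwa [← pow_mul, ← pow_succ] at h1

theorem Gamma_le {a b : ℕ} (h : a ∣ b) : Gamma b ≤ Gamma a := fun γ hγ => by
  obtain ⟨X, hX⟩ := Gamma_mem_int.1 hγ
  obtain ⟨c, rfl⟩ := h
  refine Gamma_mem_int.2 ⟨(c : ℤ) • X, ?_⟩
  rw [hX, smul_smul]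
  push_cast
  rfl

theorem Gamma_le_Gamma1 (N : ℕ) : Gamma N ≤ Gamma1 N := fun γ hγ => by
  rw [Gamma_mem] at hγ
  rw [Gamma1_mem]
  exact ⟨hγ.1, hγ.2.2.2, hγ.2.2.1⟩

/-! ### the odd level -/

theorem conj_mem_Gamma1 {N : ℕ} {g : SL(2, ℤ)} (hg : g ∈ Gamma0 N) :
    ∀ γ ∈ Gamma1 N, g * γ * g⁻¹ ∈ Gamma1 N := by
  intro γ hγ
  rw [Gamma0_mem] at hg
  rw [Gamma1_mem] at hγ ⊢
  obtain ⟨h1, h2, h3⟩ := hγ
  have hdet := congrArg (Int.cast : ℤ → ZMod N) (g.det_coe)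
  rw [det_fin_two] at hdet
  push_cast at hdet
  rw [hg, mul_zero, sub_zero] at hdet
  simp only [SpecialLinearGroup.coe_mul, SpecialLinearGroup.coe_inv, adjugate_fin_two, mul_apply,
    Fin.sum_univ_two, of_apply, cons_val', cons_val_zero, cons_val_one, empty_val',
    cons_val_fin_one]
  push_cast
  rw [h1, h2, h3, hg]
  refine ⟨?_, ?_, ?_⟩
  · linear_combination hdet
  · linear_combination hdet
  · ring

theorem sq_mem_Gamma1 {N : ℕ} (hN : ∀ a : ZMod N, IsUnit a → a ^ 2 = 1) {g : SL(2, ℤ)}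
    (hg : g ∈ Gamma0 N) : g ^ 2 ∈ Gamma1 N := by
  rw [Gamma0_mem] at hg
  rw [Gamma1_mem]
  have hdet := congrArg (Int.cast : ℤ → ZMod N) (g.det_coe)
  rw [det_fin_two] at hdet
  push_cast at hdet
  rw [hg, mul_zero, sub_zero] at hdet
  have h1 := hN _ (IsUnit.of_mul_eq_one _ hdet)
  have h2 := hN ((g 1 1 : ℤ) : ZMod N) (IsUnit.of_mul_eq_one ((g 0 0 : ℤ) : ZMod N) (by
    rw [mul_comm]; exact hdet))
  rw [pow_two, SpecialLinearGroup.coe_mul]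
  simp only [mul_apply, Fin.sum_univ_two]
  push_cast
  rw [hg]
  refine ⟨?_, ?_, ?_⟩
  · linear_combination h1
  · linear_combination h2
  · ring

theorem units_three : ∀ a : ZMod 3, IsUnit a → a ^ 2 = 1 := by decide

theorem units_one : ∀ a : ZMod 1, IsUnit a → a ^ 2 = 1 := fun _ _ => Subsingleton.elim _ _

/-! ### the groups -/

/-- `Γ(2^M) ∩ Γ_1(N)` -/
def K (N M : ℕ) : Subgroup SL(2, ℤ) := Gamma (2 ^ M) ⊓ Gamma1 N

/-- `Γ(2) ∩ Γ_0(N)` -/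
def B (N : ℕ) : Subgroup SL(2, ℤ) := Gamma 2 ⊓ Gamma0 N

/-- `± (Γ(2^M) ∩ Γ_1(N))` -/
def G (N M : ℕ) : Subgroup SL(2, ℤ) := pm (K N M)

theorem K_le_B {N M : ℕ} : K N (M + 1) ≤ B N :=
  fun _ h => ⟨Gamma_le ⟨2 ^ M, pow_succ' 2 M⟩ h.1, Gamma1_in_Gamma0 N h.2⟩

theorem neg_one_mem_B (N : ℕ) : -1 ∈ B N := by
  refine ⟨?_, ?_⟩
  · refine Gamma_mem.2 ⟨?_, ?_, ?_, ?_⟩ <;> simp
  · refine Gamma0_mem.2 ?_
    simp

theorem G_le_B {N M : ℕ} : G N (M + 1) ≤ B N := by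
  rintro γ (h | h)
  · exact K_le_B h
  · have := mul_mem (neg_one_mem_B N) (K_le_B h)
    rwa [neg_mul_neg, one_mul] at this

theorem K_anti {N M M' : ℕ} (h : M ≤ M') : K N M' ≤ K N M :=
  fun _ h1 => ⟨Gamma_le (pow_dvd_pow 2 h) h1.1, h1.2⟩

theorem G_anti {N M M' : ℕ} (h : M ≤ M') : G N M' ≤ G N M := pm_mono (K_anti h)

theorem conj_mem_K {N : ℕ} (M : ℕ) {g : SL(2, ℤ)} (hg : g ∈ Gamma0 N) :
    ∀ γ ∈ K N M, g * γ * g⁻¹ ∈ K N M :=
  fun γ h => ⟨(Gamma_normal (2 ^ M)).conj_mem γ h.1 g, conj_mem_Gamma1 hg γ h.2⟩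

theorem conj_mem_G {N : ℕ} (M : ℕ) {g : SL(2, ℤ)} (hg : g ∈ Gamma0 N) :
    ∀ γ ∈ G N M, g * γ * g⁻¹ ∈ G N M := conj_pm (conj_mem_K M hg)

theorem pow_mem_K {N : ℕ} (hN : ∀ a : ZMod N, IsUnit a → a ^ 2 = 1) (M : ℕ) {g : SL(2, ℤ)}
    (hg : g ∈ B N) : g ^ 2 ^ (M + 1) ∈ K N (M + 1) := by
  refine ⟨?_, ?_⟩
  · exact Gamma_le (pow_dvd_pow 2 (Nat.le_succ _)) (pow_mem_Gamma hg.1 (M + 1))
  · rw [pow_succ', pow_mul]
    exact pow_mem (sq_mem_Gamma1 hN hg.2) _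

instance normal_G (N M : ℕ) : ((G N M).subgroupOf (B N)).Normal :=
  ⟨fun γ h g => conj_mem_G M g.2.2 γ h⟩

instance normal_K (N M : ℕ) : ((K N M).subgroupOf (B N)).Normal :=
  ⟨fun γ h g => conj_mem_K M g.2.2 γ h⟩

/-- the quotient is a 2-group -/
theorem isPGroup_quot {N : ℕ} (hN : ∀ a : ZMod N, IsUnit a → a ^ 2 = 1) (M : ℕ)
    (H : Subgroup SL(2, ℤ)) (hH : K N (M + 1) ≤ H) [(H.subgroupOf (B N)).Normal] :
    IsPGroup 2 (B N ⧸ H.subgroupOf (B N)) := by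
  intro x
  obtain ⟨g, rfl⟩ := QuotientGroup.mk_surjective x
  refine ⟨M + 1, ?_⟩
  rw [← QuotientGroup.mk_pow, QuotientGroup.eq_one_iff, Subgroup.mem_subgroupOf]
  exact hH (pow_mem_K hN M g.2)

theorem isPGroup_G {N : ℕ} (hN : ∀ a : ZMod N, IsUnit a → a ^ 2 = 1) (M : ℕ) :
    IsPGroup 2 (B N ⧸ (G N (M + 1)).subgroupOf (B N)) :=
  isPGroup_quot hN M (G N (M + 1)) (le_pm _)

theorem isPGroup_G3 (M : ℕ) : IsPGroup 2 (B 3 ⧸ (G 3 (M + 1)).subgroupOf (B 3)) :=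
  isPGroup_G units_three M

theorem isPGroup_G1 (M : ℕ) : IsPGroup 2 (B 1 ⧸ (G 1 (M + 1)).subgroupOf (B 1)) :=
  isPGroup_G units_one M

/-! ### finite index, finitely generated, finitely many characters -/

instance finiteIndex_K (N M : ℕ) [NeZero N] : (K N M).FiniteIndex := by
  unfold K
  infer_instance

instance finiteIndex_B (N : ℕ) [NeZero N] : (B N).FiniteIndex := by
  unfold B
  infer_instance

instance finiteIndex_G (N M : ℕ) [NeZero N] : (G N M).FiniteIndex :=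
  Subgroup.finiteIndex_of_le (le_pm (K N M))

instance finite_quot (N : ℕ) (H : Subgroup SL(2, ℤ)) [H.FiniteIndex] :
    Finite (B N ⧸ H.subgroupOf (B N)) := inferInstance

instance fg_SL : Group.FG SL(2, ℤ) :=
  Group.fg_iff.2 ⟨{S, T}, SpecialLinearGroup.SL2Z_generators, by simp⟩

/-- a finitely generated group has finitely many homs to a finite group -/
theorem finite_hom {H A : Type*} [Group H] [Group.FG H] [Group A] [Finite A] :
    Finite (H →* A) := by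
  obtain ⟨s, hs, hf⟩ := Group.fg_iff.1 (inferInstance : Group.FG H)
  have := hf.to_subtype
  refine Finite.of_injective (fun (f : H →* A) (x : s) => f x) fun f g h => ?_
  refine MonoidHom.eq_of_eqOn_dense hs fun x hx => congrFun h ⟨x, hx⟩

instance fg_of_finiteIndex (H : Subgroup SL(2, ℤ)) [H.FiniteIndex] : Group.FG H :=
  Subgroup.fg_of_index_ne_zero H

/-- finitely many characters -/
theorem finite_char (H : Subgroup SL(2, ℤ)) [H.FiniteIndex] (A : Type*) [Group A] [Finite A] :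
    Finite (H →* A) := finite_hom

end Vale.Agent.P022.H908.GM
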