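import Vale.Agent.P022.H908.L3.GM

/-!
# P022-L3: the groups `G(N, M)` of the top file (`N = 1, 3`, `M ≥ 2`)

`G(N, M) = {γ : 2^M ∣ b, 2^M N ∣ c, 2^M ∣ a - d, and for N = 3: d ≡ ±1 mod 12}`.
-/

namespace Vale.Agent.P022.H908.GM

open Matrix CongruenceSubgroup ModularGroup
open scoped MatrixGroups

/-- the condition defining `G(N, M)` -/
structure GP (N M : ℕ) (γ : SL(2, ℤ)) : Prop where
  b : (2 ^ M : ℤ) ∣ γ 0 1
  c : (2 ^ M * N : ℤ) ∣ γ 1 0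
  ad : (2 ^ M : ℤ) ∣ γ 0 0 - γ 1 1
  d : N = 3 → (12 : ℤ) ∣ γ 1 1 - 1 ∨ (12 : ℤ) ∣ γ 1 1 + 1

theorem mul_apply' (g h : SL(2, ℤ)) (i j : Fin 2) :
    (g * h) i j = g i 0 * h 0 j + g i 1 * h 1 j := by
  rw [SpecialLinearGroup.coe_mul, mul_apply, Fin.sum_univ_two]

theorem inv_apply' (g : SL(2, ℤ)) : g⁻¹ 0 0 = g 1 1 ∧ g⁻¹ 0 1 = -g 0 1 ∧ g⁻¹ 1 0 = -g 1 0 ∧
    g⁻¹ 1 1 = g 0 0 := by
  rw [SpecialLinearGroup.coe_inv, adjugate_fin_two]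
  simp

theorem det_eq (g : SL(2, ℤ)) : g 0 0 * g 1 1 - g 0 1 * g 1 0 = 1 := by
  have := g.det_coe
  rwa [det_fin_two] at this

/-- the sign of `d` modulo `12` -/
theorem GP.sign {N M : ℕ} {γ : SL(2, ℤ)} (h : GP N M γ) (hN : N = 3) :
    ∃ s : ℤ, (s = 1 ∨ s = -1) ∧ (12 : ℤ) ∣ γ 1 1 - s := by
  rcases h.d hN with h1 | h1
  · exact ⟨1, Or.inl rfl, h1⟩
  · exact ⟨-1, Or.inr rfl, by simpa using h1⟩

theorem of_sign {x s : ℤ} (hs : s = 1 ∨ s = -1) (h : (12 : ℤ) ∣ x - s) :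
    (12 : ℤ) ∣ x - 1 ∨ (12 : ℤ) ∣ x + 1 := by
  rcases hs with rfl | rfl
  · exact Or.inl h
  · exact Or.inr (by simpa using h)

theorem twelve_dvd {N M : ℕ} (hM : 2 ≤ M) (hN : N = 3) {x : ℤ} (h : (2 ^ M * N : ℤ) ∣ x) :
    (12 : ℤ) ∣ x := by
  refine dvd_trans ?_ h
  obtain ⟨m, rfl⟩ := Nat.exists_eq_add_of_le hM
  subst hN
  exact ⟨2 ^ m, by push_cast; ring⟩

/-- `G(N, M)` -/
def GG (N M : ℕ) (hM : 2 ≤ M) : Subgroup SL(2, ℤ) where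
  carrier := {γ | GP N M γ}
  one_mem' := ⟨by simp, by simp, by simp, fun _ => Or.inl (by simp)⟩
  mul_mem' := by
    intro g h hg hh
    refine ⟨?_, ?_, ?_, fun hN => ?_⟩
    · rw [mul_apply']
      exact dvd_add (Dvd.dvd.mul_left hh.b _) (Dvd.dvd.mul_right hg.b _)
    · rw [mul_apply']
      exact dvd_add (Dvd.dvd.mul_right hg.c _) (Dvd.dvd.mul_left hh.c _)
    · rw [mul_apply', mul_apply']
      have e : g 0 0 * h 0 0 + g 0 1 * h 1 0 - (g 1 0 * h 0 1 + g 1 1 * h 1 1) =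
          (g 0 0 - g 1 1) * h 0 0 + g 1 1 * (h 0 0 - h 1 1) + g 0 1 * h 1 0 -
            g 1 0 * h 0 1 := by ring
      rw [e]
      exact dvd_sub (dvd_add (dvd_add (Dvd.dvd.mul_right hg.ad _) (Dvd.dvd.mul_left hh.ad _))
        (Dvd.dvd.mul_right hg.b _)) (Dvd.dvd.mul_left hh.b _)
    · obtain ⟨s, hs, h1⟩ := hg.sign hN
      obtain ⟨t, ht, h2⟩ := hh.sign hN
      have h3 := twelve_dvd hM hN hg.c
      refine of_sign (s := s * t) ?_ ?_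
      · rcases hs with rfl | rfl <;> rcases ht with rfl | rfl <;> simp
      · rw [mul_apply']
        have e : g 1 0 * h 0 1 + g 1 1 * h 1 1 - s * t =
            g 1 0 * h 0 1 + (g 1 1 - s) * h 1 1 + s * (h 1 1 - t) := by ring
        rw [e]
        exact dvd_add (dvd_add (Dvd.dvd.mul_right h3 _) (Dvd.dvd.mul_right h1 _))
          (Dvd.dvd.mul_left h2 _)
  inv_mem' := by
    intro g hg
    obtain ⟨e1, e2, e3, e4⟩ := inv_apply' g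
    refine ⟨?_, ?_, ?_, fun hN => ?_⟩
    · rw [e2]; exact (dvd_neg).2 hg.b
    · rw [e3]; exact (dvd_neg).2 hg.c
    · rw [e1, e4]
      have := (dvd_neg).2 hg.ad
      rwa [neg_sub] at this
    · obtain ⟨s, hs, h1⟩ := hg.sign hN
      have h3 := twelve_dvd hM hN hg.c
      rw [e4]
      refine of_sign hs ?_
      have hss : s * s = 1 := by rcases hs with rfl | rfl <;> norm_num
      have e : g 0 0 - s = -(s * (g 0 0 * (g 1 1 - s))) + s * (g 0 1 * g 1 0) := by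
        have := det_eq g
        linear_combination (-g 0 0) * hss + s * this
      rw [e]
      exact dvd_add ((dvd_neg).2 (Dvd.dvd.mul_left (Dvd.dvd.mul_left h1 _) _))
        (Dvd.dvd.mul_left (Dvd.dvd.mul_left h3 _) _)

theorem mem_GG {N M : ℕ} {hM : 2 ≤ M} {γ : SL(2, ℤ)} : γ ∈ GG N M hM ↔ GP N M γ := Iff.rfl

theorem neg_one_mem_GG {N M : ℕ} {hM : 2 ≤ M} : -1 ∈ GG N M hM :=
  mem_GG.2 ⟨by simp, by simp, by simp, fun _ => Or.inr (by simp)⟩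

theorem dvd_of_cast {n : ℕ} {x : ℤ} (h : (x : ZMod n) = 0) : (n : ℤ) ∣ x :=
  (ZMod.intCast_zmod_eq_zero_iff_dvd _ n).1 h

theorem cast_of_dvd {n : ℕ} {x : ℤ} (h : (n : ℤ) ∣ x) : (x : ZMod n) = 0 :=
  (ZMod.intCast_zmod_eq_zero_iff_dvd _ n).2 h

theorem odd_coprime {N : ℕ} (hN : N = 1 ∨ N = 3) (M : ℕ) : IsCoprime (2 ^ M : ℤ) (N : ℤ) := by
  refine IsCoprime.pow_left ?_
  rcases hN with rfl | rfl
  · exact isCoprime_one_right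
  · exact ⟨-1, 1, by norm_num⟩

theorem K_le_GG {N M : ℕ} (hN : N = 1 ∨ N = 3) (hM : 2 ≤ M) : K N M ≤ GG N M hM := by
  rintro γ ⟨h1', h2'⟩
  have h1 := Gamma_mem.1 h1'
  have h2 := (Gamma1_mem N γ).1 h2'
  have b1 : ((2 ^ M : ℕ) : ℤ) ∣ γ 0 0 - 1 := dvd_of_cast (by push_cast; rw [h1.1, sub_self])
  have b2 : ((2 ^ M : ℕ) : ℤ) ∣ γ 0 1 := dvd_of_cast h1.2.1
  have b3 : ((2 ^ M : ℕ) : ℤ) ∣ γ 1 0 := dvd_of_cast h1.2.2.1
  have b4 : ((2 ^ M : ℕ) : ℤ) ∣ γ 1 1 - 1 := dvd_of_cast (by push_cast; rw [h1.2.2.2, sub_self])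
  have c3 : (N : ℤ) ∣ γ 1 0 := dvd_of_cast h2.2.2
  have c4 : (N : ℤ) ∣ γ 1 1 - 1 := dvd_of_cast (by push_cast; rw [h2.2.1, sub_self])
  push_cast at b1 b2 b3 b4
  refine mem_GG.2 ⟨b2, (odd_coprime hN M).mul_dvd b3 c3, ?_, fun h => Or.inl ?_⟩
  · have := dvd_sub b1 b4
    rwa [sub_sub_sub_cancel_right] at this
  · subst h
    have h4 : (4 : ℤ) ∣ γ 1 1 - 1 := by
      refine dvd_trans ?_ b4
      obtain ⟨m, rfl⟩ := Nat.exists_eq_add_of_le hM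
      exact ⟨2 ^ m, by ring⟩
    have h12 : (12 : ℤ) = 4 * 3 := by norm_num
    rw [h12]
    exact IsCoprime.mul_dvd ⟨1, -1, by norm_num⟩ h4 (by exact_mod_cast c4)

theorem GG_le_B {N M : ℕ} {hM : 2 ≤ M} : GG N M hM ≤ B N := by
  intro γ h
  have h2 : (2 : ℤ) ∣ 2 ^ M := dvd_pow_self 2 (by omega)
  have hb : (2 : ℤ) ∣ γ 0 1 := h2.trans h.b
  have hc : (2 : ℤ) ∣ γ 1 0 := h2.trans ((dvd_mul_right _ _).trans h.c)
  have had : (2 : ℤ) ∣ γ 0 0 - γ 1 1 := h2.trans h.ad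
  have hdet := det_eq γ
  refine ⟨Gamma_mem.2 ?_, Gamma0_mem.2 ?_⟩
  · have hb' : ((γ 0 1 : ℤ) : ZMod 2) = 0 := cast_of_dvd (by exact_mod_cast hb)
    have hc' : ((γ 1 0 : ℤ) : ZMod 2) = 0 := cast_of_dvd (by exact_mod_cast hc)
    have had' : ((γ 0 0 - γ 1 1 : ℤ) : ZMod 2) = 0 := cast_of_dvd (by exact_mod_cast had)
    have hdet' := congrArg (Int.cast : ℤ → ZMod 2) hdet
    push_cast at hdet' had'
    rw [hb', zero_mul, sub_zero] at hdet'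
    have e : ((γ 0 0 : ℤ) : ZMod 2) = ((γ 1 1 : ℤ) : ZMod 2) := sub_eq_zero.1 had'
    rw [e] at hdet'
    have h5 : ∀ x : ZMod 2, x * x = 1 → x = 1 := by decide
    have h6 := h5 _ hdet'
    exact ⟨e.trans h6, hb', hc', h6⟩
  · exact cast_of_dvd ((dvd_mul_left _ _).trans h.c)

/-- normal in `Γ_0(N)` -/
theorem conj_mem_GG {N M : ℕ} {hM : 2 ≤ M} (hN : N = 1 ∨ N = 3) {g : SL(2, ℤ)}
    (hg : g ∈ Gamma0 N) : ∀ γ ∈ GG N M hM, g * γ * g⁻¹ ∈ GG N M hM := by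
  intro γ h
  have hg' : (N : ℤ) ∣ g 1 0 := dvd_of_cast (Gamma0_mem.1 hg)
  have hdet := det_eq g
  obtain ⟨e1, e2, e3, e4⟩ := inv_apply' g
  have hc : (2 ^ M : ℤ) ∣ γ 1 0 := (dvd_mul_right _ _).trans h.c
  have hcN : (N : ℤ) ∣ γ 1 0 := (dvd_mul_left _ _).trans h.c
  refine mem_GG.2 ⟨?_, ?_, ?_, fun h3 => ?_⟩
  · rw [mul_apply', mul_apply', mul_apply', e2, e4]
    have e : (g 0 0 * γ 0 0 + g 0 1 * γ 1 0) * -g 0 1 + (g 0 0 * γ 0 1 + g 0 1 * γ 1 1) * g 0 0 =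
        -(g 0 0 * g 0 1) * (γ 0 0 - γ 1 1) + (g 0 0 * g 0 0) * γ 0 1 - (g 0 1 * g 0 1) * γ 1 0 := by
      ring
    rw [e]
    exact dvd_sub (dvd_add (Dvd.dvd.mul_left h.ad _) (Dvd.dvd.mul_left h.b _))
      (Dvd.dvd.mul_left hc _)
  · rw [mul_apply', mul_apply', mul_apply', e1, e3]
    have e : (g 1 0 * γ 0 0 + g 1 1 * γ 1 0) * g 1 1 + (g 1 0 * γ 0 1 + g 1 1 * γ 1 1) * -g 1 0 =
        (g 1 0 * g 1 1) * (γ 0 0 - γ 1 1) - (g 1 0 * g 1 0) * γ 0 1 + (g 1 1 * g 1 1) * γ 1 0 := by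
      ring
    refine (odd_coprime hN M).mul_dvd ?_ ?_
    · rw [e]
      exact dvd_add (dvd_sub (Dvd.dvd.mul_left h.ad _) (Dvd.dvd.mul_left h.b _))
        (Dvd.dvd.mul_left hc _)
    · rw [e]
      refine dvd_add (dvd_sub ?_ ?_) (Dvd.dvd.mul_left hcN _)
      · exact Dvd.dvd.mul_right (Dvd.dvd.mul_right hg' _) _
      · exact Dvd.dvd.mul_right (Dvd.dvd.mul_right hg' _) _
  · rw [mul_apply', mul_apply', mul_apply', mul_apply', mul_apply', mul_apply', e1, e2, e3, e4]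
    have e : (g 0 0 * γ 0 0 + g 0 1 * γ 1 0) * g 1 1 + (g 0 0 * γ 0 1 + g 0 1 * γ 1 1) * -g 1 0 -
        ((g 1 0 * γ 0 0 + g 1 1 * γ 1 0) * -g 0 1 + (g 1 0 * γ 0 1 + g 1 1 * γ 1 1) * g 0 0) =
        (g 0 0 * g 1 1 + g 0 1 * g 1 0) * (γ 0 0 - γ 1 1) + (2 * g 0 1 * g 1 1) * γ 1 0 -
          (2 * g 0 0 * g 1 0) * γ 0 1 := by ring
    rw [e]
    exact dvd_sub (dvd_add (Dvd.dvd.mul_left h.ad _) (Dvd.dvd.mul_left hc _))
      (Dvd.dvd.mul_left h.b _)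
  · obtain ⟨s, hs, h1⟩ := h.sign h3
    refine of_sign hs ?_
    have h4 : (4 : ℤ) ∣ 2 ^ M := by
      obtain ⟨m, rfl⟩ := Nat.exists_eq_add_of_le hM
      exact ⟨2 ^ m, by ring⟩
    subst h3
    rw [mul_apply', mul_apply', mul_apply', e2, e4]
    have hdg : γ 1 1 - s = γ 1 1 - s := rfl
    have e : (g 1 0 * γ 0 0 + g 1 1 * γ 1 0) * -g 0 1 + (g 1 0 * γ 0 1 + g 1 1 * γ 1 1) * g 0 0 - s
        = -(g 1 0 * g 0 1) * (γ 0 0 - γ 1 1) - (g 1 1 * g 0 1) * γ 1 0 +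
          (g 1 0 * g 0 0) * γ 0 1 + (γ 1 1 - s) := by
      linear_combination (γ 1 1) * hdet
    rw [e]
    have h12 : (12 : ℤ) = 4 * 3 := by norm_num
    have hg3 : (3 : ℤ) ∣ g 1 0 := by exact_mod_cast hg'
    have h1a : (4 : ℤ) ∣ γ 1 1 - s := dvd_trans ⟨3, by norm_num⟩ h1
    have h1b : (3 : ℤ) ∣ γ 1 1 - s := dvd_trans ⟨4, by norm_num⟩ h1
    have hc3 : (3 : ℤ) ∣ γ 1 0 := by exact_mod_cast hcN
    rw [h12]
    refine IsCoprime.mul_dvd ⟨1, -1, by norm_num⟩ ?_ ?_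
    · exact dvd_add (dvd_add (dvd_sub (Dvd.dvd.mul_left (h4.trans h.ad) _)
        (Dvd.dvd.mul_left (h4.trans hc) _)) (Dvd.dvd.mul_left (h4.trans h.b) _)) h1a
    · refine dvd_add (dvd_add (dvd_sub ?_ (Dvd.dvd.mul_left hc3 _)) ?_) h1b
      · exact Dvd.dvd.mul_right ((dvd_neg).2 (Dvd.dvd.mul_right hg3 _)) _
      · exact Dvd.dvd.mul_right (Dvd.dvd.mul_right hg3 _) _

theorem normal_GG {N M : ℕ} {hM : 2 ≤ M} (hN : N = 1 ∨ N = 3) :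
    ((GG N M hM).subgroupOf (B N)).Normal :=
  ⟨fun γ h g => conj_mem_GG (hM := hM) hN g.2.2 γ h⟩

theorem finiteIndex_GG {N M : ℕ} {hM : 2 ≤ M} (hN : N = 1 ∨ N = 3) :
    (GG N M hM).FiniteIndex := by
  have : NeZero N := ⟨by rcases hN with rfl | rfl <;> norm_num⟩
  exact Subgroup.finiteIndex_of_le (K_le_GG hN hM)

/-- every element of `Γ(2) ∩ Γ_0(N)` has a power `2^M` in `G(N, M)` -/
theorem pow_mem_GG {N M : ℕ} {hM : 2 ≤ M} (hN : N = 1 ∨ N = 3) {g : SL(2, ℤ)} (hg : g ∈ B N) :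
    g ^ 2 ^ M ∈ GG N M hM := by
  obtain ⟨m, rfl⟩ : ∃ m, M = m + 1 := ⟨M - 1, by omega⟩
  refine K_le_GG hN hM (pow_mem_K ?_ m hg)
  rcases hN with rfl | rfl
  · exact units_one
  · exact units_three

theorem isPGroup_GG {N M : ℕ} {hM : 2 ≤ M} (hN : N = 1 ∨ N = 3)
    [((GG N M hM).subgroupOf (B N)).Normal] :
    IsPGroup 2 (B N ⧸ (GG N M hM).subgroupOf (B N)) := by
  intro x
  obtain ⟨g, rfl⟩ := QuotientGroup.mk_surjective x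
  refine ⟨M, ?_⟩
  rw [← QuotientGroup.mk_pow, QuotientGroup.eq_one_iff, Subgroup.mem_subgroupOf]
  exact pow_mem_GG hN g.2

/-- finitely many characters -/
theorem finite_char_GG {N M : ℕ} {hM : 2 ≤ M} (hN : N = 1 ∨ N = 3) (A : Type*) [Group A]
    [Finite A] : Finite (GG N M hM →* A) := by
  have := finiteIndex_GG (hM := hM) hN
  exact finite_char _ A

end Vale.Agent.P022.H908.GM
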