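import Mathlib.Algebra.BigOperators.Group.Finset.Basic
import Mathlib.Algebra.BigOperators.GroupWithZero.Finset
import Mathlib.Algebra.Group.Subgroup.Basic
import Mathlib.Algebra.GroupWithZero.Units.Basic
import Mathlib.Algebra.Group.Pi.Lemmas
import Mathlib.Logic.Equiv.Prod
import Mathlib.GroupTheory.GroupAction.Basic
import Mathlib.Data.Fintype.BigOperators
import Mathlib.Data.Fintype.Prod
import Mathlib.Tactic.Group
import Mathlib.Tactic.LinearCombination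

/-!
# P022-L3, row [HV]: Hecke operators on `Hom(Γ, A)` (letter-free)

`Γ ≤ 𝒢`, `α : ι → 𝒢` a finite family of cosets `Γ α i` (repetitions allowed) which is stable under
right multiplication by `Γ`.  `T φ γ = ∏ φ (α i * γ * (α (π i))⁻¹)`.
-/

namespace Vale.Agent.P022.H908.HV

open Finset

variable {𝒢 : Type*} [Group 𝒢] {Γ : Subgroup 𝒢} {A : Type*} [CommGroup A]
  {ι κ : Type*} [Fintype ι] [Fintype κ]

/-- the family of cosets `Γ α i` is stable under right multiplication by `Γ` -/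
def IsSys (Γ : Subgroup 𝒢) (α : ι → 𝒢) : Prop :=
  ∀ γ ∈ Γ, ∃ π : Equiv.Perm ι, ∀ i, α i * γ * (α (π i))⁻¹ ∈ Γ

open Classical in
/-- `φ` extended by one -/
noncomputable def ev (φ : Γ →* A) (g : 𝒢) : A := if h : g ∈ Γ then φ ⟨g, h⟩ else 1

theorem ev_of (φ : Γ →* A) {g : 𝒢} (h : g ∈ Γ) : ev φ g = φ ⟨g, h⟩ := by
  rw [ev, dif_pos h]

theorem ev_coe (φ : Γ →* A) (g : Γ) : ev φ (g : 𝒢) = φ g := ev_of φ g.2

theorem ev_mul (φ : Γ →* A) {g h : 𝒢} (hg : g ∈ Γ) (hh : h ∈ Γ) :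
    ev φ (g * h) = ev φ g * ev φ h := by
  rw [ev_of φ hg, ev_of φ hh, ev_of φ (mul_mem hg hh), ← map_mul]
  rfl

theorem ev_one (φ : Γ →* A) : ev φ 1 = 1 := by
  rw [ev_of φ Γ.one_mem]
  exact map_one φ

theorem ev_inv (φ : Γ →* A) {g : 𝒢} (hg : g ∈ Γ) : ev φ g⁻¹ = (ev φ g)⁻¹ := by
  rw [ev_of φ hg, ev_of φ (inv_mem hg), ← map_inv]
  rfl

theorem ev_mul_hom (φ ψ : Γ →* A) (g : 𝒢) : ev (φ * ψ) g = ev φ g * ev ψ g := by
  by_cases h : g ∈ Γ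
  · rw [ev_of _ h, ev_of _ h, ev_of _ h]
    rfl
  · rw [ev, ev, ev, dif_neg h, dif_neg h, dif_neg h, mul_one]

theorem ev_one_hom (g : 𝒢) : ev (1 : Γ →* A) g = 1 := by
  by_cases h : g ∈ Γ
  · rw [ev_of _ h]
    rfl
  · rw [ev, dif_neg h]

/-- a permutation inside the cosets contributes nothing -/
theorem prod_self (φ : Γ →* A) (b : ι → 𝒢) (σ : Equiv.Perm ι)
    (h : ∀ i, b i * (b (σ i))⁻¹ ∈ Γ) : ∏ i, ev φ (b i * (b (σ i))⁻¹) = 1 := by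
  classical
  let s : Setoid ι :=
    { r := fun i j => b i * (b j)⁻¹ ∈ Γ
      iseqv := ⟨fun i => by simp [Γ.one_mem], fun {i j} h => by
        have := inv_mem h
        simpa using this, fun {i j k} h h' => by
        have := mul_mem h h'
        simpa [mul_assoc] using this⟩ }
  let r : ι → ι := fun i => (Quotient.mk s i).out
  have hr : ∀ i, b i * (b (r i))⁻¹ ∈ Γ := fun i => by
    have h1 : s.r (r i) i := Quotient.exact (Quotient.out_eq (Quotient.mk s i))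
    exact s.iseqv.symm h1
  have hs : ∀ i, r (σ i) = r i := fun i => by
    have h1 : Quotient.mk s i = Quotient.mk s (σ i) := Quotient.sound (h i)
    show (Quotient.mk s (σ i)).out = (Quotient.mk s i).out
    rw [h1]
  have h2 : ∀ i, ev φ (b i * (b (σ i))⁻¹) =
      ev φ (b i * (b (r i))⁻¹) * (ev φ (b (σ i) * (b (r (σ i)))⁻¹))⁻¹ := fun i => by
    rw [← ev_inv φ (hr (σ i)), ← ev_mul φ (hr i) (inv_mem (hr (σ i))), hs i]
    congr 1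
    group
  rw [prod_congr rfl fun i _ => h2 i, prod_mul_distrib, prod_inv_distrib,
    Equiv.prod_comp σ (fun i => ev φ (b i * (b (r i))⁻¹)), mul_inv_cancel]

/-- two matchings of the cosets give the same product -/
theorem prod_perm (φ : Γ →* A) (a : ι → 𝒢) (b : κ → 𝒢) (π π' : ι ≃ κ)
    (h : ∀ i, a i * (b (π i))⁻¹ ∈ Γ) (h' : ∀ i, a i * (b (π' i))⁻¹ ∈ Γ) :
    ∏ i, ev φ (a i * (b (π i))⁻¹) = ∏ i, ev φ (a i * (b (π' i))⁻¹) := by
  classical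
  have h0 : ∀ j, b j * (b (π' (π.symm j)))⁻¹ ∈ Γ := fun j => by
    have h1 := mul_mem (inv_mem (h (π.symm j))) (h' (π.symm j))
    rw [Equiv.apply_symm_apply] at h1
    simpa [mul_assoc] using h1
  have h1 := prod_self φ b (π.symm.trans π') h0
  have h2 : ∀ i, ev φ (a i * (b (π' i))⁻¹) =
      ev φ (a i * (b (π i))⁻¹) * ev φ (b (π i) * (b (π' (π.symm (π i))))⁻¹) := fun i => by
    rw [← ev_mul φ (h i) (h0 (π i)), Equiv.symm_apply_apply]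
    congr 1
    group
  rw [prod_congr rfl fun i _ => h2 i, prod_mul_distrib,
    Equiv.prod_comp π (fun j => ev φ (b j * (b (π' (π.symm j)))⁻¹))]
  simp only [Equiv.trans_apply] at h1
  rw [h1, mul_one]

/-- the Hecke operator as a function -/
noncomputable def TF {α : ι → 𝒢} (h : IsSys Γ α) (φ : Γ →* A) (γ : Γ) : A :=
  ∏ i, ev φ (α i * (γ : 𝒢) * (α ((h γ γ.2).choose i))⁻¹)

theorem TF_eq {α : ι → 𝒢} (h : IsSys Γ α) (φ : Γ →* A) (γ : Γ) (π : Equiv.Perm ι)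
    (hπ : ∀ i, α i * (γ : 𝒢) * (α (π i))⁻¹ ∈ Γ) :
    TF h φ γ = ∏ i, ev φ (α i * (γ : 𝒢) * (α (π i))⁻¹) :=
  prod_perm φ (fun i => α i * (γ : 𝒢)) α _ π (h γ γ.2).choose_spec hπ

/-- the Hecke operator on `Hom(Γ, A)` -/
noncomputable def T {α : ι → 𝒢} (h : IsSys Γ α) : (Γ →* A) →* (Γ →* A) where
  toFun φ :=
    { toFun := TF h φ
      map_one' := by
        rw [TF_eq h φ 1 (Equiv.refl ι) (fun i => by simp [Γ.one_mem])]
        refine prod_eq_one fun i _ => ?_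
        simp [ev_one]
      map_mul' := fun γ γ' => by
        obtain ⟨π, hπ⟩ := h γ γ.2
        obtain ⟨π', hπ'⟩ := h γ' γ'.2
        have e : ∀ i, α i * ((γ * γ' : Γ) : 𝒢) * (α ((π.trans π') i))⁻¹ =
            (α i * (γ : 𝒢) * (α (π i))⁻¹) * (α (π i) * (γ' : 𝒢) * (α (π' (π i)))⁻¹) := fun i => by
          simp only [Subgroup.coe_mul, Equiv.trans_apply]
          group
        rw [TF_eq h φ γ π hπ, TF_eq h φ γ' π' hπ', TF_eq h φ (γ * γ') (π.trans π')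
          (fun i => by rw [e]; exact mul_mem (hπ i) (hπ' (π i)))]
        rw [prod_congr rfl fun i _ => by rw [e i, ev_mul φ (hπ i) (hπ' (π i))], prod_mul_distrib,
          Equiv.prod_comp π (fun j => ev φ (α j * (γ' : 𝒢) * (α (π' j))⁻¹))] }
  map_one' := by
    ext γ
    show TF h 1 γ = 1
    exact prod_eq_one fun i _ => ev_one_hom _
  map_mul' φ ψ := by
    ext γ
    show TF h (φ * ψ) γ = TF h φ γ * TF h ψ γ
    simp only [TF, ev_mul_hom, prod_mul_distrib]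

theorem T_apply {α : ι → 𝒢} (h : IsSys Γ α) (φ : Γ →* A) (γ : Γ) (π : Equiv.Perm ι)
    (hπ : ∀ i, α i * (γ : 𝒢) * (α (π i))⁻¹ ∈ Γ) :
    T h φ γ = ∏ i, φ ⟨α i * (γ : 𝒢) * (α (π i))⁻¹, hπ i⟩ := by
  show TF h φ γ = _
  rw [TF_eq h φ γ π hπ]
  exact prod_congr rfl fun i _ => ev_of φ (hπ i)

omit [Fintype ι] [Fintype κ] in
/-- the same cosets with the same multiplicities give a system again -/
theorem IsSys.congr {α : ι → 𝒢} {β : κ → 𝒢} (h : IsSys Γ α) (e : ι ≃ κ)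
    (he : ∀ i, α i * (β (e i))⁻¹ ∈ Γ) : IsSys Γ β := by
  intro γ hγ
  obtain ⟨π, hπ⟩ := h γ hγ
  refine ⟨(e.symm.trans π).trans e, fun j => ?_⟩
  have h1 := mul_mem (mul_mem (inv_mem (he (e.symm j))) (hπ (e.symm j))) (he (π (e.symm j)))
  rw [Equiv.apply_symm_apply] at h1
  simp only [Equiv.trans_apply]
  convert h1 using 1
  group

theorem T_congr {α : ι → 𝒢} {β : κ → 𝒢} (h : IsSys Γ α) (h' : IsSys Γ β) (e : ι ≃ κ)
    (he : ∀ i, α i * (β (e i))⁻¹ ∈ Γ) : (T h : (Γ →* A) →* (Γ →* A)) = T h' := by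
  ext φ γ
  obtain ⟨π, hπ⟩ := h γ γ.2
  have e1 : ∀ i, β (e i) * (γ : 𝒢) * (β (((e.symm.trans π).trans e) (e i)))⁻¹ =
      (α i * (β (e i))⁻¹)⁻¹ * (α i * (γ : 𝒢) * (α (π i))⁻¹) * (α (π i) * (β (e (π i)))⁻¹) :=
    fun i => by
      simp only [Equiv.trans_apply, Equiv.symm_apply_apply]
      group
  have h2 : ∀ j, β j * (γ : 𝒢) * (β (((e.symm.trans π).trans e) j))⁻¹ ∈ Γ := fun j => by
    have := e1 (e.symm j)
    rw [Equiv.apply_symm_apply] at this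
    rw [this]
    have h3 := he (e.symm j)
    rw [Equiv.apply_symm_apply] at h3
    exact mul_mem (mul_mem (inv_mem h3) (hπ _)) (he _)
  show TF h φ γ = TF h' φ γ
  rw [TF_eq h φ γ π hπ, TF_eq h' φ γ _ h2,
    ← Equiv.prod_comp e (fun j => ev φ (β j * (γ : 𝒢) *
      (β (((e.symm.trans π).trans e) j))⁻¹))]
  have h4 : ∀ i, ev φ (β (e i) * (γ : 𝒢) * (β (((e.symm.trans π).trans e) (e i)))⁻¹) =
      (ev φ (α i * (β (e i))⁻¹))⁻¹ * ev φ (α i * (γ : 𝒢) * (α (π i))⁻¹) *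
        ev φ (α (π i) * (β (e (π i)))⁻¹) := fun i => by
    rw [e1 i, ev_mul φ (mul_mem (inv_mem (he i)) (hπ i)) (he (π i)),
      ev_mul φ (inv_mem (he i)) (hπ i), ev_inv φ (he i)]
  have h5 := Equiv.prod_comp π (fun j => ev φ (α j * (β (e j))⁻¹))
  rw [prod_congr rfl fun i _ => h4 i, prod_mul_distrib, prod_mul_distrib, h5, prod_inv_distrib]
  rw [mul_comm, mul_inv_cancel_left]

omit [Fintype ι] [Fintype κ] in
/-- the product of two systems -/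
theorem IsSys.comp {α : ι → 𝒢} {β : κ → 𝒢} (h : IsSys Γ α) (h' : IsSys Γ β) :
    IsSys Γ (fun x : ι × κ => β x.2 * α x.1) := by
  intro γ hγ
  obtain ⟨π, hπ⟩ := h γ hγ
  choose ρ hρ using fun i => h' _ (hπ i)
  refine ⟨Equiv.prodShear π ρ, fun x => ?_⟩
  have := hρ x.1 x.2
  simp only [Equiv.prodShear_apply]
  convert this using 1
  group

theorem T_comp {α : ι → 𝒢} {β : κ → 𝒢} (h : IsSys Γ α) (h' : IsSys Γ β) (φ : Γ →* A) :
    T (h.comp h') φ = T h (T h' φ) := by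
  ext γ
  obtain ⟨π, hπ⟩ := h γ γ.2
  choose ρ hρ using fun i => h' _ (hπ i)
  have e1 : ∀ x : ι × κ, (β x.2 * α x.1) * (γ : 𝒢) *
      ((fun y : ι × κ => β y.2 * α y.1) (Equiv.prodShear π ρ x))⁻¹ =
      β x.2 * (α x.1 * (γ : 𝒢) * (α (π x.1))⁻¹) * (β (ρ x.1 x.2))⁻¹ := fun x => by
    simp only [Equiv.prodShear_apply]
    group
  show TF (h.comp h') φ γ = TF h (T h' φ) γ
  rw [TF_eq (h.comp h') φ γ (Equiv.prodShear π ρ) (fun x => by rw [e1 x]; exact hρ x.1 x.2),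
    TF_eq h _ γ π hπ, Fintype.prod_prod_type]
  refine prod_congr rfl fun i _ => ?_
  rw [ev_of _ (hπ i)]
  show _ = TF h' φ _
  rw [TF_eq h' φ ⟨_, hπ i⟩ (ρ i) (hρ i)]
  exact prod_congr rfl fun j _ => by rw [e1 (i, j)]

/-- two systems whose product cosets agree commute -/
theorem T_comm {α : ι → 𝒢} {β : κ → 𝒢} (h : IsSys Γ α) (h' : IsSys Γ β) (e : ι × κ ≃ κ × ι)
    (he : ∀ x : ι × κ, β x.2 * α x.1 * (α (e x).2 * β (e x).1)⁻¹ ∈ Γ) (φ : Γ →* A) :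
    T h (T h' φ) = T h' (T h φ) := by
  rw [← T_comp, ← T_comp, T_congr (h.comp h') (h'.comp h) e he]

/-! ### the normaliser -/

theorem isSys_unit {δ : 𝒢} (hδ : ∀ γ ∈ Γ, δ * γ * δ⁻¹ ∈ Γ) : IsSys Γ (fun _ : Unit => δ) :=
  fun γ hγ => ⟨Equiv.refl _, fun _ => hδ γ hγ⟩

/-- the operator `D_δ φ (γ) = φ (δ γ δ⁻¹)` -/
noncomputable def D {δ : 𝒢} (hδ : ∀ γ ∈ Γ, δ * γ * δ⁻¹ ∈ Γ) : (Γ →* A) →* (Γ →* A) :=
  T (isSys_unit hδ)

theorem D_apply {δ : 𝒢} (hδ : ∀ γ ∈ Γ, δ * γ * δ⁻¹ ∈ Γ) (φ : Γ →* A) (γ : Γ) :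
    D hδ φ γ = φ ⟨δ * (γ : 𝒢) * δ⁻¹, hδ γ γ.2⟩ := by
  rw [D, T_apply (isSys_unit hδ) φ γ (Equiv.refl _) (fun _ => hδ γ γ.2)]
  simp

theorem D_mul {δ ε : 𝒢} (hδ : ∀ γ ∈ Γ, δ * γ * δ⁻¹ ∈ Γ) (hε : ∀ γ ∈ Γ, ε * γ * ε⁻¹ ∈ Γ)
    (hm : ∀ γ ∈ Γ, (ε * δ) * γ * (ε * δ)⁻¹ ∈ Γ) (φ : Γ →* A) :
    D hδ (D hε φ) = D hm φ := by
  ext γ
  rw [D_apply, D_apply, D_apply]
  congr 2
  group

theorem D_of_mem {δ : 𝒢} (hδ : ∀ γ ∈ Γ, δ * γ * δ⁻¹ ∈ Γ) (h : δ ∈ Γ) (φ : Γ →* A) :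
    D hδ φ = φ := by
  ext γ
  rw [D_apply]
  have : (⟨δ * (γ : 𝒢) * δ⁻¹, hδ γ γ.2⟩ : Γ) = ⟨δ, h⟩ * γ * ⟨δ, h⟩⁻¹ := rfl
  rw [this, map_mul, map_mul, map_inv, mul_comm (φ ⟨δ, h⟩), mul_inv_cancel_right]

theorem T_D_comm {α : ι → 𝒢} (h : IsSys Γ α) {δ : 𝒢} (hδ : ∀ γ ∈ Γ, δ * γ * δ⁻¹ ∈ Γ)
    (e : ι ≃ ι) (he : ∀ i, δ * α i * (α (e i) * δ)⁻¹ ∈ Γ) (φ : Γ →* A) :
    T h (D hδ φ) = D hδ (T h φ) :=
  T_comm h (isSys_unit hδ)
    ((Equiv.prodComm ι Unit).trans (Equiv.prodCongr (Equiv.refl Unit) e)) (fun x => he x.1) φ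

/-! ### functions -/

/-- the product of the translates has the character `T φ`, with a factor of automorphy -/
theorem prod_transform {X F : Type*} [MulAction 𝒢 X] [Field F] (J : 𝒢 → X → Fˣ)
    (hJ : ∀ g g' x, J (g * g') x = J g (g' • x) * J g' x) {α : ι → 𝒢} (h : IsSys Γ α)
    (φ : Γ →* Fˣ) (f : X → F) (hf : ∀ (γ : Γ) x, f ((γ : 𝒢) • x) = φ γ * J γ x * f x)
    (γ : Γ) (x : X) :
    ∏ i, ((J (α i) ((γ : 𝒢) • x))⁻¹ : Fˣ) * f (α i • (γ : 𝒢) • x) =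
      (T h φ γ : Fˣ) * (J γ x : Fˣ) ^ Fintype.card ι * ∏ i, ((J (α i) x)⁻¹ : Fˣ) * f (α i • x) := by
  obtain ⟨π, hπ⟩ := h γ γ.2
  rw [T_apply h φ γ π hπ]
  have key : ∀ i, (((J (α i) ((γ : 𝒢) • x))⁻¹ : Fˣ) : F) * f (α i • (γ : 𝒢) • x) =
      ((φ ⟨_, hπ i⟩ : Fˣ) : F) * (J γ x : Fˣ) *
        ((((J (α (π i)) x)⁻¹ : Fˣ) : F) * f (α (π i) • x)) := fun i => by
    have e1 : α i * (γ : 𝒢) = (α i * (γ : 𝒢) * (α (π i))⁻¹) * α (π i) := by group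
    have e2 : α i • (γ : 𝒢) • x = (α i * (γ : 𝒢) * (α (π i))⁻¹) • α (π i) • x := by
      rw [smul_smul, smul_smul]
      congr 1
    have e3 : J (α i) ((γ : 𝒢) • x) * J γ x =
        J (α i * (γ : 𝒢) * (α (π i))⁻¹) (α (π i) • x) * J (α (π i)) x := by
      rw [← hJ, ← hJ]
      congr 1
    have e4 : (J (α i) ((γ : 𝒢) • x))⁻¹ * J (α i * (γ : 𝒢) * (α (π i))⁻¹) (α (π i) • x) =
        J γ x * (J (α (π i)) x)⁻¹ := by
      rw [inv_mul_eq_iff_eq_mul, ← mul_assoc, e3, mul_inv_cancel_right]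
    rw [e2, hf ⟨_, hπ i⟩ (α (π i) • x)]
    have e5 := congrArg (Units.val) e4
    simp only [Units.val_mul] at e5
    linear_combination (((φ ⟨_, hπ i⟩ : Fˣ) : F) * f (α (π i) • x)) * e5
  rw [prod_congr rfl fun i _ => key i, prod_mul_distrib, prod_mul_distrib, prod_const,
    Equiv.prod_comp π (fun j => (((J (α j) x)⁻¹ : Fˣ) : F) * f (α j • x)), card_univ,
    Units.coe_prod]

/-- weight zero -/
theorem prod_transform0 {X F : Type*} [MulAction 𝒢 X] [Field F] {α : ι → 𝒢} (h : IsSys Γ α)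
    (φ : Γ →* Fˣ) (f : X → F) (hf : ∀ (γ : Γ) x, f ((γ : 𝒢) • x) = φ γ * f x)
    (γ : Γ) (x : X) :
    ∏ i, f (α i • (γ : 𝒢) • x) = (T h φ γ : Fˣ) * ∏ i, f (α i • x) := by
  have := prod_transform (fun _ _ => (1 : Fˣ)) (fun _ _ _ => by simp) h φ f
    (fun γ x => by simpa using hf γ x) γ x
  simpa using this

/-! ### restriction to a subgroup -/

/-- if the same representatives work for `Γ' ≤ Γ`, the Hecke operators commute with restriction -/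
theorem T_restrict {Γ' : Subgroup 𝒢} (hle : Γ' ≤ Γ) {α : ι → 𝒢} (h : IsSys Γ α)
    (h' : IsSys Γ' α) (φ : Γ →* A) :
    T h' (φ.comp (Subgroup.inclusion hle)) = (T h φ).comp (Subgroup.inclusion hle) := by
  ext γ
  obtain ⟨π, hπ⟩ := h' γ γ.2
  rw [T_apply h' _ γ π hπ]
  show _ = T h φ (Subgroup.inclusion hle γ)
  rw [T_apply h φ (Subgroup.inclusion hle γ) π (fun i => hle (hπ i))]
  rfl

end Vale.Agent.P022.H908.HV
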